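import Vale.Agent.Lib.P339.Step

namespace Vale.Agent.Lib.P339

open Finset

open scoped Classical in
/-- Total probability of the constraints whose right vertex is `v`. -/
noncomputable def Game.inWeight {q : ℕ} (G : Game q) (v : G.V) : ℝ :=
  ∑ e, if G.tgt e = v then G.prob e else 0

theorem Game.inWeight_nonneg {q : ℕ} (G : Game q) (v : G.V) : 0 ≤ G.inWeight v := by
  classical
  unfold Game.inWeight
  apply Finset.sum_nonneg
  intro e _
  split_ifs
  · exact G.prob_nonneg e
  · exact le_refl _

theorem Game.sum_inWeight_mul {q : ℕ} (G : Game q) (f : G.V → ℝ) :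
    ∑ v, G.inWeight v * f v = ∑ e, G.prob e * f (G.tgt e) := by
  classical
  unfold Game.inWeight
  simp only [Finset.sum_mul]
  rw [Finset.sum_comm]
  apply Finset.sum_congr rfl
  intro e _
  simp only [ite_mul, zero_mul]
  rw [Finset.sum_ite_eq]
  simp

theorem Game.sum_inWeight {q : ℕ} (G : Game q) : ∑ v, G.inWeight v = 1 := by
  have h := G.sum_inWeight_mul (fun _ => 1)
  simp only [mul_one] at h
  rw [h, G.prob_sum]

/-- The game over the alphabets enlarged by one right label (two left labels): the old
constraints with extended maps, each of probability scaled by `1/3`, and for every right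
vertex `v` a new left vertex carrying the two gadget constraints towards `v`, each of
probability `inWeight v / 3`. -/
noncomputable def Game.addLabel {q : ℕ} (G : Game q) (hq : 2 ≤ q) : Game (q + 1) where
  U := G.U ⊕ G.V
  V := G.V
  E := G.E ⊕ (G.V × Fin 2)
  nonemptyE := ⟨Sum.inl (Classical.arbitrary G.E)⟩
  src := Sum.elim (fun e => Sum.inl (G.src e)) (fun p => Sum.inr p.1)
  tgt := Sum.elim (fun e => G.tgt e) (fun p => p.1)
  proj := Sum.elim (fun e => extProj (G.proj e))
    (fun p => if p.2 = 0 then gadA q else gadB q hq)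
  two_to_one := by
    intro x b
    rcases x with e | ⟨v, i⟩
    · exact extProj_two_to_one (G.proj e) (G.two_to_one e) b
    · by_cases hi : i = 0
      · simp only [Sum.elim_inr, hi, if_true]
        exact gadA_two_to_one q b
      · simp only [Sum.elim_inr, hi, if_false]
        exact gadB_two_to_one q hq b
  prob := Sum.elim (fun e => G.prob e / 3) (fun p => G.inWeight p.1 / 3)
  prob_nonneg := by
    intro x
    rcases x with e | ⟨v, i⟩
    · exact div_nonneg (G.prob_nonneg e) (by norm_num)
    · exact div_nonneg (G.inWeight_nonneg v) (by norm_num)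
  prob_sum := by
    rw [Fintype.sum_sum_type, Fintype.sum_prod_type]
    simp only [Sum.elim_inl, Sum.elim_inr, Fin.sum_univ_two]
    rw [← Finset.sum_div, G.prob_sum, Finset.sum_add_distrib, ← Finset.sum_div,
      G.sum_inWeight]
    norm_num

theorem Game.addLabel_satWeight {q : ℕ} (G : Game q) (hq : 2 ≤ q)
    (A' : G.U ⊕ G.V → Fin (2 * (q + 1))) (B' : G.V → Fin (q + 1)) :
    (G.addLabel hq).satWeight A' B' =
      (∑ e, if extProj (G.proj e) (A' (Sum.inl (G.src e))) = B' (G.tgt e)
        then G.prob e else 0) / 3 +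
      (∑ v, ((if gadA q (A' (Sum.inr v)) = B' v then G.inWeight v else 0) +
        (if gadB q hq (A' (Sum.inr v)) = B' v then G.inWeight v else 0))) / 3 := by
  unfold Game.satWeight
  show (∑ x : G.E ⊕ (G.V × Fin 2), _) = _
  rw [Fintype.sum_sum_type, Fintype.sum_prod_type]
  congr 1
  · rw [Finset.sum_div]
    apply Finset.sum_congr rfl
    intro e _
    show (if extProj (G.proj e) (A' (Sum.inl (G.src e))) = B' (G.tgt e)
      then G.prob e / 3 else 0) = _
    split_ifs <;> simp
  · rw [Finset.sum_div]
    apply Finset.sum_congr rfl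
    intro v _
    rw [Fin.sum_univ_two]
    show (if gadA q (A' (Sum.inr v)) = B' v then G.inWeight v / 3 else 0) +
      (if gadB q hq (A' (Sum.inr v)) = B' v then G.inWeight v / 3 else 0) = _
    split_ifs <;> ring

end Vale.Agent.Lib.P339

namespace Vale.Agent.Lib.P339

open Finset

theorem gadB_even {q : ℕ} (hq : 2 ≤ q) (b : Fin q) :
    gadB q hq (⟨2 * b.val, by omega⟩ : Fin (2 * (q + 1))) = b.castSucc := by
  apply Fin.ext
  simp only [gadB, gadBnat, Fin.val_castSucc]
  have := b.isLt
  split_ifs <;> omega

theorem gadA_even {q : ℕ} (b : Fin q) :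
    gadA q (⟨2 * b.val, by omega⟩ : Fin (2 * (q + 1))) = b.castSucc := by
  apply Fin.ext
  simp only [gadA, Fin.val_castSucc]
  omega

/-- Completeness of `addLabel`: every labeling of `G` lifts to a labeling of the enlarged
game of weight `(w + 2) / 3`. -/
theorem Game.addLabel_complete {q : ℕ} (G : Game q) (hq : 2 ≤ q) (A : G.U → Fin (2 * q))
    (B : G.V → Fin q) :
    ∃ (A' : (G.addLabel hq).U → Fin (2 * (q + 1))) (B' : (G.addLabel hq).V → Fin (q + 1)),
      (G.addLabel hq).satWeight A' B' = (G.satWeight A B + 2) / 3 := by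
  have hle : 2 * q ≤ 2 * (q + 1) := by omega
  let A' : G.U ⊕ G.V → Fin (2 * (q + 1)) :=
    Sum.elim (fun u => Fin.castLE hle (A u)) (fun v => ⟨2 * (B v).val, by omega⟩)
  let B' : G.V → Fin (q + 1) := fun v => (B v).castSucc
  refine ⟨A', B', ?_⟩
  rw [G.addLabel_satWeight hq A' B']
  have h1 : (∑ e, if extProj (G.proj e) (A' (Sum.inl (G.src e))) = B' (G.tgt e)
      then G.prob e else 0) = G.satWeight A B := by
    unfold Game.satWeight
    apply Finset.sum_congr rfl
    intro e _
    have hlt : (A' (Sum.inl (G.src e))).val < 2 * q := by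
      show (Fin.castLE hle (A (G.src e))).val < 2 * q
      simp
    have hval : (⟨(A' (Sum.inl (G.src e))).val, hlt⟩ : Fin (2 * q)) = A (G.src e) := by
      apply Fin.ext
      show (Fin.castLE hle (A (G.src e))).val = _
      simp
    rw [extProj_old _ _ hlt, hval]
    show (if (G.proj e (A (G.src e))).castSucc = (B (G.tgt e)).castSucc then _ else _) = _
    by_cases hc : G.proj e (A (G.src e)) = B (G.tgt e)
    · rw [if_pos hc, if_pos (congrArg Fin.castSucc hc)]
    · rw [if_neg hc, if_neg (fun h => hc (Fin.castSucc_inj.mp h))]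
  have h2 : (∑ v, ((if gadA q (A' (Sum.inr v)) = B' v then G.inWeight v else 0) +
      (if gadB q hq (A' (Sum.inr v)) = B' v then G.inWeight v else 0))) = 2 := by
    have : ∀ v, ((if gadA q (A' (Sum.inr v)) = B' v then G.inWeight v else 0) +
        (if gadB q hq (A' (Sum.inr v)) = B' v then G.inWeight v else 0))
          = 2 * G.inWeight v := by
      intro v
      have ha : gadA q (A' (Sum.inr v)) = B' v := gadA_even (B v)
      have hb : gadB q hq (A' (Sum.inr v)) = B' v := gadB_even hq (B v)
      rw [if_pos ha, if_pos hb]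
      ring
    simp only [this]
    rw [← Finset.mul_sum, G.sum_inWeight]
    norm_num
  rw [h1, h2]
  ring

/-- Soundness of `addLabel`: every labeling of the enlarged game of weight `w'` yields a
labeling of `G` of weight at least `3 w' - 2`. -/
theorem Game.addLabel_sound {q : ℕ} (G : Game q) (hq : 2 ≤ q)
    (A' : (G.addLabel hq).U → Fin (2 * (q + 1))) (B' : (G.addLabel hq).V → Fin (q + 1)) :
    ∃ (A : G.U → Fin (2 * q)) (B : G.V → Fin q),
      (G.addLabel hq).satWeight A' B' ≤ (G.satWeight A B + 2) / 3 := by
  let A0 : G.U ⊕ G.V → Fin (2 * (q + 1)) := A'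
  let B0 : G.V → Fin (q + 1) := B'
  let A : G.U → Fin (2 * q) := fun u =>
    if h : (A0 (Sum.inl u)).val < 2 * q then ⟨(A0 (Sum.inl u)).val, h⟩ else ⟨0, by omega⟩
  let B : G.V → Fin q := fun v =>
    if h : (B0 v).val < q then ⟨(B0 v).val, h⟩ else ⟨0, by omega⟩
  let δ : G.V → ℝ := fun v => if (B0 v).val < q then 0 else 1
  refine ⟨A, B, ?_⟩
  have hsat : (G.addLabel hq).satWeight A' B' = _ := G.addLabel_satWeight hq A0 B0
  rw [hsat]
  have c1 : ∀ e, (if extProj (G.proj e) (A0 (Sum.inl (G.src e))) = B0 (G.tgt e)
      then G.prob e else 0) ≤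
      (if G.proj e (A (G.src e)) = B (G.tgt e) then G.prob e else 0)
        + G.prob e * δ (G.tgt e) := by
    intro e
    have hp := G.prob_nonneg e
    by_cases hb : (B0 (G.tgt e)).val < q
    · have hδ : δ (G.tgt e) = 0 := by simp only [δ, if_pos hb]
      rw [hδ, mul_zero, add_zero]
      by_cases hc : extProj (G.proj e) (A0 (Sum.inl (G.src e))) = B0 (G.tgt e)
      · rw [if_pos hc]
        by_cases ha : (A0 (Sum.inl (G.src e))).val < 2 * q
        · have hAe : A (G.src e) = ⟨(A0 (Sum.inl (G.src e))).val, ha⟩ := by
            simp only [A, dif_pos ha]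
          have hBe : B (G.tgt e) = ⟨(B0 (G.tgt e)).val, hb⟩ := by
            simp only [B, dif_pos hb]
          have hsat' : G.proj e (A (G.src e)) = B (G.tgt e) := by
            rw [hAe, hBe]
            rw [extProj_old _ _ ha] at hc
            apply Fin.ext
            have := congrArg Fin.val hc
            simpa using this
          rw [if_pos hsat']
        · rw [extProj_new _ _ ha] at hc
          exfalso
          have := congrArg Fin.val hc
          simp only [Fin.val_last] at this
          omega
      · rw [if_neg hc]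
        split_ifs
        · exact hp
        · exact le_refl _
    · have hδ : δ (G.tgt e) = 1 := by simp only [δ, if_neg hb]
      rw [hδ, mul_one]
      have h1 : (if extProj (G.proj e) (A0 (Sum.inl (G.src e))) = B0 (G.tgt e)
          then G.prob e else 0) ≤ G.prob e := by
        split_ifs
        · exact le_refl _
        · exact hp
      have h2 : (0 : ℝ) ≤ (if G.proj e (A (G.src e)) = B (G.tgt e) then G.prob e else 0) := by
        split_ifs
        · exact hp
        · exact le_refl _
      linarith
  have c2 : ∀ v, ((if gadA q (A0 (Sum.inr v)) = B0 v then G.inWeight v else 0) +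
      (if gadB q hq (A0 (Sum.inr v)) = B0 v then G.inWeight v else 0))
        ≤ 2 * G.inWeight v - G.inWeight v * δ v := by
    intro v
    have hw := G.inWeight_nonneg v
    by_cases hb : (B0 v).val < q
    · have hδ : δ v = 0 := by simp only [δ, if_pos hb]
      rw [hδ, mul_zero, sub_zero]
      split_ifs <;> linarith
    · have hδ : δ v = 1 := by simp only [δ, if_neg hb]
      rw [hδ, mul_one]
      have hbq : (B0 v).val = q := by
        have := (B0 v).isLt
        omega
      by_cases ha : gadA q (A0 (Sum.inr v)) = B0 v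
      · have hnb : ¬ gadB q hq (A0 (Sum.inr v)) = B0 v := by
          intro hbb
          have h1 := congrArg Fin.val ha
          have h2 := congrArg Fin.val hbb
          simp only [gadA, gadB, gadBnat] at h1 h2
          rw [hbq] at h1 h2
          split_ifs at h2 <;> omega
        rw [if_pos ha, if_neg hnb]
        linarith
      · rw [if_neg ha]
        split_ifs <;> linarith
  have s1 : (∑ e, if extProj (G.proj e) (A0 (Sum.inl (G.src e))) = B0 (G.tgt e)
      then G.prob e else 0) ≤ G.satWeight A B + ∑ e, G.prob e * δ (G.tgt e) := by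
    unfold Game.satWeight
    rw [← Finset.sum_add_distrib]
    exact Finset.sum_le_sum (fun e _ => c1 e)
  have s2 : (∑ v, ((if gadA q (A0 (Sum.inr v)) = B0 v then G.inWeight v else 0) +
      (if gadB q hq (A0 (Sum.inr v)) = B0 v then G.inWeight v else 0)))
        ≤ 2 - ∑ e, G.prob e * δ (G.tgt e) := by
    have : (∑ v, (2 * G.inWeight v - G.inWeight v * δ v))
        = 2 - ∑ e, G.prob e * δ (G.tgt e) := by
      rw [Finset.sum_sub_distrib, ← Finset.mul_sum, G.sum_inWeight, G.sum_inWeight_mul]
      norm_num
    rw [← this]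
    exact Finset.sum_le_sum (fun v _ => c2 v)
  linarith

theorem Game.addLabel_card_U {q : ℕ} (G : Game q) (hq : 2 ≤ q) :
    Fintype.card (G.addLabel hq).U = Fintype.card G.U + Fintype.card G.V := by
  show Fintype.card (G.U ⊕ G.V) = _
  rw [Fintype.card_sum]

theorem Game.addLabel_card_V {q : ℕ} (G : Game q) (hq : 2 ≤ q) :
    Fintype.card (G.addLabel hq).V = Fintype.card G.V := rfl

theorem Game.addLabel_card_E {q : ℕ} (G : Game q) (hq : 2 ≤ q) :
    Fintype.card (G.addLabel hq).E = Fintype.card G.E + 2 * Fintype.card G.V := by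
  show Fintype.card (G.E ⊕ (G.V × Fin 2)) = _
  rw [Fintype.card_sum, Fintype.card_prod, Fintype.card_fin]
  ring

end Vale.Agent.Lib.P339
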