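import Vale.Agent.Lib.P339.Game

namespace Vale.Agent.Lib.P339

open Finset

/-- Every map `Fin 4 → Fin 2` is the tuple of its four values. -/
theorem fun_eq_tuple (f : Fin (2 * 2) → Fin 2) :
    f = fun a : Fin (2 * 2) => ![f ⟨0, by decide⟩, f ⟨1, by decide⟩, f ⟨2, by decide⟩,
      f ⟨3, by decide⟩] a := by
  funext a
  have h : ∀ a : Fin 4, f a = ![f ⟨0, by decide⟩, f ⟨1, by decide⟩, f ⟨2, by decide⟩,
      f ⟨3, by decide⟩] a := by
    intro a
    fin_cases a <;> rfl
  exact h a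

/-- Brute-force classification of the 2-to-1 maps from a 4-element to a 2-element alphabet:
each is an affine function over the field with two elements of the two bits of its
argument. -/
theorem tuple_affine : ∀ p : Fin 2 × Fin 2 × Fin 2 × Fin 2,
    (∀ b : Fin 2, (univ.filter fun a : Fin 4 =>
      ![p.1, p.2.1, p.2.2.1, p.2.2.2] a = b).card = 2) →
    ∃ c0 c1 c2 : ZMod 2, ∀ (a : Fin 4) (b : Fin 2),
      ![p.1, p.2.1, p.2.2.1, p.2.2.2] a = b ↔
        ((b.val : ℕ) : ZMod 2) = c0 + c1 * ((a.val % 2 : ℕ) : ZMod 2)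
          + c2 * ((a.val / 2 : ℕ) : ZMod 2) := by
  decide

/-- Every 2-to-1 map from a 4-element alphabet to a 2-element alphabet is an affine
function over the two-element field of the two bits of its argument. -/
theorem two_to_one_affine (f : Fin (2 * 2) → Fin 2)
    (hf : ∀ b, (univ.filter fun a => f a = b).card = 2) :
    ∃ c0 c1 c2 : ZMod 2, ∀ (a : Fin (2 * 2)) (b : Fin 2),
      f a = b ↔ ((b.val : ℕ) : ZMod 2) = c0 + c1 * ((a.val % 2 : ℕ) : ZMod 2)
          + c2 * ((a.val / 2 : ℕ) : ZMod 2) := by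
  have h := tuple_affine (f ⟨0, by decide⟩, f ⟨1, by decide⟩, f ⟨2, by decide⟩,
    f ⟨3, by decide⟩)
  have hf' : ∀ b : Fin 2, (univ.filter fun a : Fin 4 =>
      ![f ⟨0, by decide⟩, f ⟨1, by decide⟩, f ⟨2, by decide⟩, f ⟨3, by decide⟩] a = b).card
        = 2 := by
    intro b
    have := hf b
    rw [fun_eq_tuple f] at this
    exact this
  obtain ⟨c0, c1, c2, hc⟩ := h hf'
  refine ⟨c0, c1, c2, ?_⟩
  intro a b
  rw [fun_eq_tuple f]
  exact hc a b

end Vale.Agent.Lib.P339

namespace Vale.Agent.Lib.P339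

open Finset

/-- Bitwise sum modulo two of three elements of a 4-element alphabet. -/
def xorL (a b c : Fin (2 * 2)) : Fin (2 * 2) :=
  ⟨(a.val % 2 + b.val % 2 + c.val % 2) % 2 + 2 * ((a.val / 2 + b.val / 2 + c.val / 2) % 2),
    by omega⟩

/-- Sum modulo two of three elements of a 2-element alphabet. -/
def xorR (a b c : Fin 2) : Fin 2 := ⟨(a.val + b.val + c.val) % 2, by omega⟩

theorem xorL_right : ∀ x y : Fin (2 * 2), xorL x y y = x ∧ xorL y y x = x := by decide

theorem xorR_right : ∀ x y : Fin 2, xorR x y y = x ∧ xorR y y x = x := by decide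

/-- Brute force: every 2-to-1 map from a 4-element to a 2-element alphabet commutes with
the two ternary sum operations. -/
theorem tuple_xor : ∀ p : Fin 2 × Fin 2 × Fin 2 × Fin 2,
    (∀ b : Fin 2, (univ.filter fun a : Fin 4 =>
      ![p.1, p.2.1, p.2.2.1, p.2.2.2] a = b).card = 2) →
    ∀ a b c : Fin 4, ![p.1, p.2.1, p.2.2.1, p.2.2.2] (xorL a b c) =
      xorR (![p.1, p.2.1, p.2.2.1, p.2.2.2] a) (![p.1, p.2.1, p.2.2.1, p.2.2.2] b)
        (![p.1, p.2.1, p.2.2.1, p.2.2.2] c) := by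
  decide

theorem two_to_one_xor (f : Fin (2 * 2) → Fin 2)
    (hf : ∀ b, (univ.filter fun a => f a = b).card = 2) (a b c : Fin (2 * 2)) :
    f (xorL a b c) = xorR (f a) (f b) (f c) := by
  have h := tuple_xor (f ⟨0, by decide⟩, f ⟨1, by decide⟩, f ⟨2, by decide⟩,
    f ⟨3, by decide⟩)
  have hf' : ∀ b : Fin 2, (univ.filter fun a : Fin 4 =>
      ![f ⟨0, by decide⟩, f ⟨1, by decide⟩, f ⟨2, by decide⟩, f ⟨3, by decide⟩] a = b).card
        = 2 := by
    intro b
    have := hf b
    rw [fun_eq_tuple f] at this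
    exact this
  have h2 := h hf' a b c
  rw [fun_eq_tuple f]
  exact h2

end Vale.Agent.Lib.P339
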