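import Mathlib

namespace Vale.Agent.Lib.P339

open Finset

/-- A 2-to-1 game with alphabets `Fin (2 * q)` (left) and `Fin q` (right): finite vertex
sets `U`, `V`, a nonempty finite index set `E` of constraints, each constraint `e` having a
left vertex `src e`, a right vertex `tgt e` and a map `proj e` whose fibres all have exactly
two elements, together with a probability distribution `prob` on `E`. -/
structure Game (q : ℕ) where
  U : Type
  V : Type
  E : Type
  [fintypeU : Fintype U]
  [fintypeV : Fintype V]
  [fintypeE : Fintype E]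
  [nonemptyE : Nonempty E]
  src : E → U
  tgt : E → V
  proj : E → Fin (2 * q) → Fin q
  two_to_one : ∀ e b, (univ.filter fun a => proj e a = b).card = 2
  prob : E → ℝ
  prob_nonneg : ∀ e, 0 ≤ prob e
  prob_sum : ∑ e, prob e = 1

attribute [instance] Game.fintypeU Game.fintypeV Game.fintypeE Game.nonemptyE

/-- The probability, under the distribution of the game, that a random constraint is
satisfied by the labeling `A`, `B`. -/
noncomputable def Game.satWeight {q : ℕ} (G : Game q) (A : G.U → Fin (2 * q))
    (B : G.V → Fin q) : ℝ :=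
  ∑ e, if G.proj e (A (G.src e)) = B (G.tgt e) then G.prob e else 0

/-- Every game with right alphabet of size `q ≥ 1` has a labeling of weight at least `1/q`. -/
theorem Game.exists_labeling {q : ℕ} (hq : 1 ≤ q) (G : Game q) :
    ∃ A B, (1 : ℝ) / q ≤ G.satWeight A B := by
  classical
  have hq0 : 0 < q := hq
  let B : G.V → Fin q := fun _ => ⟨0, hq0⟩
  -- per-vertex weight
  let f : G.U → Fin (2 * q) → ℝ := fun u a =>
    ∑ e ∈ univ.filter (fun e => G.src e = u),
      if G.proj e a = B (G.tgt e) then G.prob e else 0
  have hsum : ∀ u, ∑ a, f u a = 2 * ∑ e ∈ univ.filter (fun e => G.src e = u), G.prob e := by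
    intro u
    simp only [f]
    rw [Finset.sum_comm, Finset.mul_sum]
    apply Finset.sum_congr rfl
    intro e _
    rw [← Finset.sum_filter, Finset.sum_const, G.two_to_one e (B (G.tgt e))]
    simp
  have hne : (univ : Finset (Fin (2 * q))).Nonempty := by
    refine ⟨⟨0, by omega⟩, mem_univ _⟩
  have hex : ∀ u, ∃ a, (1 : ℝ) / q * ∑ e ∈ univ.filter (fun e => G.src e = u), G.prob e
      ≤ f u a := by
    intro u
    have h := Finset.exists_le_of_sum_le hne
      (f := fun _ : Fin (2 * q) =>
        (1 : ℝ) / q * ∑ e ∈ univ.filter (fun e => G.src e = u), G.prob e)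
      (g := f u) (by
        rw [hsum u, Finset.sum_const, Finset.card_univ, Fintype.card_fin]
        have hqr : (0 : ℝ) < q := by exact_mod_cast hq0
        rw [nsmul_eq_mul]
        push_cast
        have : (2 * (q : ℝ)) * (1 / q * ∑ e ∈ univ.filter (fun e => G.src e = u), G.prob e)
            = 2 * ∑ e ∈ univ.filter (fun e => G.src e = u), G.prob e := by
          field_simp
        rw [this])
    obtain ⟨a, _, ha⟩ := h
    exact ⟨a, ha⟩
  choose A hA using hex
  refine ⟨A, B, ?_⟩
  have h1 : G.satWeight A B = ∑ u, f u (A u) := by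
    simp only [Game.satWeight, f]
    rw [← Finset.sum_fiberwise (s := univ) (g := G.src)]
    apply Finset.sum_congr rfl
    intro u _
    apply Finset.sum_congr rfl
    intro e he
    rw [(Finset.mem_filter.mp he).2]
  rw [h1]
  calc (1 : ℝ) / q = (1 : ℝ) / q * ∑ e, G.prob e := by rw [G.prob_sum, mul_one]
    _ = (1 : ℝ) / q * ∑ u, ∑ e ∈ univ.filter (fun e => G.src e = u), G.prob e := by
        rw [Finset.sum_fiberwise (s := univ) (g := G.src)]
    _ = ∑ u, (1 : ℝ) / q * ∑ e ∈ univ.filter (fun e => G.src e = u), G.prob e := by
        rw [Finset.mul_sum]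
    _ ≤ ∑ u, f u (A u) := Finset.sum_le_sum (fun u _ => hA u)

end Vale.Agent.Lib.P339

namespace Vale.Agent.Lib.P339

open Finset

/-- A labeling has weight `1` exactly when it satisfies every constraint of positive
probability. -/
theorem Game.satWeight_eq_one_iff {q : ℕ} (G : Game q) (A : G.U → Fin (2 * q))
    (B : G.V → Fin q) :
    G.satWeight A B = 1 ↔ ∀ e, 0 < G.prob e → G.proj e (A (G.src e)) = B (G.tgt e) := by
  classical
  have hle : ∀ e ∈ (univ : Finset G.E),
      (if G.proj e (A (G.src e)) = B (G.tgt e) then G.prob e else 0) ≤ G.prob e := by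
    intro e _
    split_ifs
    · exact le_refl _
    · exact G.prob_nonneg e
  have key := Finset.sum_eq_sum_iff_of_le hle
  unfold Game.satWeight
  rw [← G.prob_sum, key]
  constructor
  · intro h e he
    by_contra hne
    have := h e (mem_univ e)
    rw [if_neg hne] at this
    linarith
  · intro h e _
    by_cases hp : 0 < G.prob e
    · rw [if_pos (h e hp)]
    · have h0 : G.prob e = 0 := le_antisymm (not_lt.mp hp) (G.prob_nonneg e)
      split_ifs
      · rfl
      · exact h0.symm

end Vale.Agent.Lib.P339
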