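import Vale.Agent.Lib.P339.Game

namespace Vale.Agent.Lib.P339

open Finset

/-- Truth value, under the assignment `σ`, of literal `i` of a clause whose three literals
have variables `var` and negation flags `neg` (`neg i = true` means the literal is the negation
of its variable). -/
def litVal {n : ℕ} (σ : Fin n → Bool) (var : Fin 3 → Fin n) (neg : Fin 3 → Bool)
    (i : Fin 3) : Bool :=
  xor (σ (var i)) (neg i)

/-- The Not-Two predicate: the number of true literals of the clause is not two. -/
abbrev NotTwo {n : ℕ} (σ : Fin n → Bool) (var : Fin 3 → Fin n) (neg : Fin 3 → Bool) : Prop :=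
  (univ.filter (fun i => litVal σ var neg i = true)).card ≠ 2

/-- The fraction of the `m` clauses of a Not-Two instance that the assignment `σ` violates. -/
noncomputable def violFrac {n m : ℕ} (var : Fin m → Fin 3 → Fin n)
    (neg : Fin m → Fin 3 → Bool) (σ : Fin n → Bool) : ℝ :=
  ((univ.filter (fun c => ¬ NotTwo σ (var c) (neg c))).card : ℝ) / m

/-- First projection of the pair vertex of the gadget (towards the first literal). -/
def gPx : Fin (2 * 6) → Fin 6 := ![0, 0, 3, 3, 1, 1, 2, 2, 4, 4, 5, 5]

/-- Second projection of the pair vertex (towards the second literal). -/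
def gPy : Fin (2 * 6) → Fin 6 := ![0, 3, 0, 3, 1, 2, 2, 4, 1, 4, 5, 5]

/-- Third projection of the pair vertex (towards the local vertex). -/
def gPa : Fin (2 * 6) → Fin 6 := ![0, 4, 4, 2, 0, 1, 1, 5, 5, 2, 3, 3]

/-- First projection of the link vertex (towards the local vertex). -/
def gQa : Fin (2 * 6) → Fin 6 := ![0, 0, 4, 4, 2, 2, 1, 1, 5, 5, 3, 3]

/-- Second projection of the link vertex (towards the third literal). -/
def gQz : Fin (2 * 6) → Fin 6 := ![0, 3, 0, 1, 3, 4, 2, 5, 1, 2, 4, 5]

/-- The involution of the right alphabet that exchanges the labels read as false (`0,1,2`)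
with the labels read as true (`3,4,5`). -/
def flip6 : Fin 6 → Fin 6 := ![3, 4, 5, 0, 1, 2]

/-- The truth value read off a right label: `0,1,2` are false and `3,4,5` are true. -/
def dec6 (b : Fin 6) : Bool := decide (3 ≤ b.val)

/-- The canonical right label of a truth value. -/
def enc6 (t : Bool) : Fin 6 := if t then 3 else 0

/-- The five constraint maps of the gadget of a clause with negation flags `s0 s1 s2`. -/
def gProj (s0 s1 s2 : Bool) : Fin 5 → Fin (2 * 6) → Fin 6 :=
  ![fun a => if s0 then flip6 (gPx a) else gPx a,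
    fun a => if s1 then flip6 (gPy a) else gPy a,
    gPa, gQa,
    fun a => if s2 then flip6 (gQz a) else gQz a]

theorem gProj_two_to_one : ∀ (s0 s1 s2 : Bool) (k : Fin 5) (b : Fin 6),
    (univ.filter fun a => gProj s0 s1 s2 k a = b).card = 2 := by
  decide

/-- The Not-Two predicate on three truth values. -/
def ntwB (t0 t1 t2 : Bool) : Bool :=
  match t0, t1, t2 with
  | true, true, false => false
  | true, false, true => false
  | false, true, true => false
  | _, _, _ => true

theorem card_true_ne_two_iff : ∀ b0 b1 b2 : Bool,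
    (univ.filter (fun i => (![b0, b1, b2] : Fin 3 → Bool) i = true)).card ≠ 2 ↔
      ntwB b0 b1 b2 = true := by
  decide

theorem notTwo_iff {n : ℕ} (σ : Fin n → Bool) (var : Fin 3 → Fin n) (neg : Fin 3 → Bool) :
    NotTwo σ var neg ↔
      ntwB (litVal σ var neg 0) (litVal σ var neg 1) (litVal σ var neg 2) = true := by
  unfold NotTwo
  rw [← card_true_ne_two_iff]
  have h : (fun i => litVal σ var neg i) =
      ![litVal σ var neg 0, litVal σ var neg 1, litVal σ var neg 2] := by
    funext i
    fin_cases i <;> rfl
  rw [← h]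

/-- Which of the two left vertices of a clause gadget a constraint starts from: the first
three constraints start from the pair vertex, the last two from the link vertex. -/
def gSide : Fin 5 → Bool := ![false, false, false, true, true]

/-- The right vertex of each of the five constraints of the gadget of clause `c` with
variables `v`: the first, the second, the local vertex (twice), and the third variable. -/
def gTgt {n m : ℕ} (v : Fin 3 → Fin n) (c : Fin m) : Fin 5 → Fin n ⊕ Fin m :=
  ![Sum.inl (v 0), Sum.inl (v 1), Sum.inr c, Sum.inr c, Sum.inl (v 2)]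

/-- The 2-to-1 game, with alphabets of sizes `12` and `6`, of a Not-Two instance with `n`
variables and `m ≥ 1` clauses. Left vertices: a pair vertex `(c, false)` and a link vertex
`(c, true)` for every clause `c`. Right vertices: the variables and one local vertex for every
clause. Every clause carries five constraints, all of the same probability `1 / (5 m)`:
from the pair vertex to the first and the second variable of the clause and to the local
vertex, and from the link vertex to the local vertex and to the third variable. -/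
noncomputable def ntwGame (n m : ℕ) (hm : 0 < m) (var : Fin m → Fin 3 → Fin n)
    (neg : Fin m → Fin 3 → Bool) : Game 6 where
  U := Fin m × Bool
  V := Fin n ⊕ Fin m
  E := Fin m × Fin 5
  nonemptyE := ⟨(⟨0, hm⟩, 0)⟩
  src := fun e => (e.1, gSide e.2)
  tgt := fun e => gTgt (var e.1) e.1 e.2
  proj := fun e => gProj (neg e.1 0) (neg e.1 1) (neg e.1 2) e.2
  two_to_one := fun e b => gProj_two_to_one _ _ _ e.2 b
  prob := fun _ => 1 / (5 * (m : ℝ))
  prob_nonneg := fun _ => by positivity
  prob_sum := by
    have hm' : (m : ℝ) ≠ 0 := by exact_mod_cast hm.ne'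
    rw [Finset.sum_const, Finset.card_univ, Fintype.card_prod, Fintype.card_fin,
      Fintype.card_fin, nsmul_eq_mul]
    push_cast
    field_simp

theorem ntwGame_card_U (n m : ℕ) (hm : 0 < m) (var : Fin m → Fin 3 → Fin n)
    (neg : Fin m → Fin 3 → Bool) : Fintype.card (ntwGame n m hm var neg).U = 2 * m := by
  show Fintype.card (Fin m × Bool) = _
  rw [Fintype.card_prod, Fintype.card_fin, Fintype.card_bool]
  ring

theorem ntwGame_card_V (n m : ℕ) (hm : 0 < m) (var : Fin m → Fin 3 → Fin n)
    (neg : Fin m → Fin 3 → Bool) : Fintype.card (ntwGame n m hm var neg).V = n + m := by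
  show Fintype.card (Fin n ⊕ Fin m) = _
  rw [Fintype.card_sum, Fintype.card_fin, Fintype.card_fin]

theorem ntwGame_card_E (n m : ℕ) (hm : 0 < m) (var : Fin m → Fin 3 → Fin n)
    (neg : Fin m → Fin 3 → Bool) : Fintype.card (ntwGame n m hm var neg).E = 5 * m := by
  show Fintype.card (Fin m × Fin 5) = _
  rw [Fintype.card_prod, Fintype.card_fin, Fintype.card_fin]
  ring

/-- The weight of a labeling of the game is the number of satisfied constraints divided by
`5 m`. -/
theorem ntwGame_satWeight (n m : ℕ) (hm : 0 < m) (var : Fin m → Fin 3 → Fin n)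
    (neg : Fin m → Fin 3 → Bool) (A : Fin m × Bool → Fin (2 * 6))
    (B : Fin n ⊕ Fin m → Fin 6) :
    (ntwGame n m hm var neg).satWeight A B =
      (∑ c : Fin m, ((univ.filter (fun k : Fin 5 =>
        gProj (neg c 0) (neg c 1) (neg c 2) k (A (c, gSide k)) = B (gTgt (var c) c k))).card
          : ℝ)) / (5 * (m : ℝ)) := by
  unfold Game.satWeight
  show ∑ e : Fin m × Fin 5,
      (if gProj (neg e.1 0) (neg e.1 1) (neg e.1 2) e.2 (A (e.1, gSide e.2))
        = B (gTgt (var e.1) e.1 e.2) then 1 / (5 * (m : ℝ)) else 0) = _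
  rw [Fintype.sum_prod_type, Finset.sum_div]
  refine Finset.sum_congr rfl fun c _ => ?_
  rw [← Finset.sum_filter, Finset.sum_const, nsmul_eq_mul]
  ring

/-- Counting the clauses: five constraints for a satisfied clause and four for a violated
one add up to `5 m` minus the number of violated clauses. -/
theorem ntw_count_sum {n m : ℕ} (var : Fin m → Fin 3 → Fin n) (neg : Fin m → Fin 3 → Bool)
    (σ : Fin n → Bool) :
    (∑ c : Fin m, (if NotTwo σ (var c) (neg c) then (5 : ℝ) else 4)) =
      5 * (m : ℝ) - ((univ.filter (fun c => ¬ NotTwo σ (var c) (neg c))).card : ℝ) := by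
  have h : ∀ c : Fin m, (if NotTwo σ (var c) (neg c) then (5 : ℝ) else 4) =
      5 - (if ¬ NotTwo σ (var c) (neg c) then (1 : ℝ) else 0) := by
    intro c
    by_cases hc : NotTwo σ (var c) (neg c)
    · simp [hc]
    · simp [hc]
      norm_num
  rw [Finset.sum_congr rfl (fun c _ => h c), Finset.sum_sub_distrib, Finset.sum_const,
    Finset.card_univ, Fintype.card_fin, nsmul_eq_mul, Finset.sum_boole]
  ring

theorem ntw_weight_formula {n m : ℕ} (hm : 0 < m) (var : Fin m → Fin 3 → Fin n)
    (neg : Fin m → Fin 3 → Bool) (σ : Fin n → Bool) :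
    (∑ c : Fin m, (if NotTwo σ (var c) (neg c) then (5 : ℝ) else 4)) / (5 * (m : ℝ)) =
      1 - violFrac var neg σ / 5 := by
  have hm' : (m : ℝ) ≠ 0 := by exact_mod_cast hm.ne'
  rw [ntw_count_sum, violFrac]
  field_simp

/-- The label of the pair vertex of a clause whose first two literals have the truth
values `t0`, `t1`. -/
def pIdx (t0 t1 : Bool) : Fin (2 * 6) :=
  if t0 then (if t1 then 3 else 2) else (if t1 then 1 else 0)

/-- The label of the link vertex of a clause whose literals have the truth values
`t0`, `t1`, `t2`. -/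
def qIdx (t0 t1 t2 : Bool) : Fin (2 * 6) :=
  if t0 = t1 then (if t0 then 4 else (if t2 then 1 else 0)) else 2

/-- With the canonical labels, the gadget of a clause has all five constraints satisfied if
the clause is satisfied, and exactly four otherwise. -/
theorem gadget_count : ∀ (v0 v1 v2 s0 s1 s2 : Bool),
    (univ.filter (fun k : Fin 5 =>
      gProj s0 s1 s2 k (if gSide k then qIdx (xor v0 s0) (xor v1 s1) (xor v2 s2)
          else pIdx (xor v0 s0) (xor v1 s1))
        = (![enc6 v0, enc6 v1, gPa (pIdx (xor v0 s0) (xor v1 s1)),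
            gPa (pIdx (xor v0 s0) (xor v1 s1)), enc6 v2] : Fin 5 → Fin 6) k)).card
      = if ntwB (xor v0 s0) (xor v1 s1) (xor v2 s2) = true then 5 else 4 := by
  decide

/-- If the two constraints towards the local vertex are compatible, the truth values read
off the three outer labels satisfy the Not-Two predicate. -/
theorem gadget_sound : ∀ (s0 s1 s2 : Bool) (p q : Fin (2 * 6)),
    gProj s0 s1 s2 2 p = gProj s0 s1 s2 3 q →
    ntwB (xor (dec6 (gProj s0 s1 s2 0 p)) s0) (xor (dec6 (gProj s0 s1 s2 1 p)) s1)
      (xor (dec6 (gProj s0 s1 s2 4 q)) s2) = true := by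
  decide

theorem ntwGame_complete (n m : ℕ) (hm : 0 < m) (var : Fin m → Fin 3 → Fin n)
    (neg : Fin m → Fin 3 → Bool) (σ : Fin n → Bool) :
    ∃ (A : Fin m × Bool → Fin (2 * 6)) (B : Fin n ⊕ Fin m → Fin 6),
      (ntwGame n m hm var neg).satWeight A B = 1 - violFrac var neg σ / 5 := by
  let A : Fin m × Bool → Fin (2 * 6) := fun u =>
    if u.2 then qIdx (xor (σ (var u.1 0)) (neg u.1 0)) (xor (σ (var u.1 1)) (neg u.1 1))
        (xor (σ (var u.1 2)) (neg u.1 2))
    else pIdx (xor (σ (var u.1 0)) (neg u.1 0)) (xor (σ (var u.1 1)) (neg u.1 1))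
  let B : Fin n ⊕ Fin m → Fin 6 := Sum.elim (fun x => enc6 (σ x))
    (fun c => gPa (pIdx (xor (σ (var c 0)) (neg c 0)) (xor (σ (var c 1)) (neg c 1))))
  refine ⟨A, B, ?_⟩
  rw [ntwGame_satWeight, ← ntw_weight_formula hm]
  congr 1
  refine Finset.sum_congr rfl fun c _ => ?_
  have hcount := gadget_count (σ (var c 0)) (σ (var c 1)) (σ (var c 2))
    (neg c 0) (neg c 1) (neg c 2)
  have hB : ∀ k : Fin 5, B (gTgt (var c) c k) =
      (![enc6 (σ (var c 0)), enc6 (σ (var c 1)),
        gPa (pIdx (xor (σ (var c 0)) (neg c 0)) (xor (σ (var c 1)) (neg c 1))),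
        gPa (pIdx (xor (σ (var c 0)) (neg c 0)) (xor (σ (var c 1)) (neg c 1))),
        enc6 (σ (var c 2))] : Fin 5 → Fin 6) k := by
    intro k
    fin_cases k <;> rfl
  have hfilter : (univ.filter (fun k : Fin 5 =>
      gProj (neg c 0) (neg c 1) (neg c 2) k (A (c, gSide k)) = B (gTgt (var c) c k)))
      = (univ.filter (fun k : Fin 5 =>
      gProj (neg c 0) (neg c 1) (neg c 2) k
        (if gSide k then qIdx (xor (σ (var c 0)) (neg c 0)) (xor (σ (var c 1)) (neg c 1))
          (xor (σ (var c 2)) (neg c 2))
          else pIdx (xor (σ (var c 0)) (neg c 0)) (xor (σ (var c 1)) (neg c 1)))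
        = (![enc6 (σ (var c 0)), enc6 (σ (var c 1)),
            gPa (pIdx (xor (σ (var c 0)) (neg c 0)) (xor (σ (var c 1)) (neg c 1))),
            gPa (pIdx (xor (σ (var c 0)) (neg c 0)) (xor (σ (var c 1)) (neg c 1))),
            enc6 (σ (var c 2))] : Fin 5 → Fin 6) k)) := by
    apply Finset.filter_congr
    intro k _
    rw [hB k]
  rw [hfilter, hcount]
  by_cases hc : NotTwo σ (var c) (neg c)
  · have hb : ntwB (xor (σ (var c 0)) (neg c 0)) (xor (σ (var c 1)) (neg c 1))
        (xor (σ (var c 2)) (neg c 2)) = true := (notTwo_iff σ (var c) (neg c)).mp hc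
    rw [if_pos hc, if_pos hb]
    norm_num
  · have hb : ¬ ntwB (xor (σ (var c 0)) (neg c 0)) (xor (σ (var c 1)) (neg c 1))
        (xor (σ (var c 2)) (neg c 2)) = true :=
      fun h => hc ((notTwo_iff σ (var c) (neg c)).mpr h)
    rw [if_neg hc, if_neg hb]
    norm_num

theorem ntwGame_sound (n m : ℕ) (hm : 0 < m) (var : Fin m → Fin 3 → Fin n)
    (neg : Fin m → Fin 3 → Bool) (A : Fin m × Bool → Fin (2 * 6))
    (B : Fin n ⊕ Fin m → Fin 6) :
    ∃ σ : Fin n → Bool,
      (ntwGame n m hm var neg).satWeight A B ≤ 1 - violFrac var neg σ / 5 := by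
  let σ : Fin n → Bool := fun x => dec6 (B (Sum.inl x))
  refine ⟨σ, ?_⟩
  rw [ntwGame_satWeight, ← ntw_weight_formula hm]
  apply div_le_div_of_nonneg_right _ (by positivity)
  apply Finset.sum_le_sum
  intro c _
  have h5 : (univ.filter (fun k : Fin 5 =>
      gProj (neg c 0) (neg c 1) (neg c 2) k (A (c, gSide k)) = B (gTgt (var c) c k))).card
      ≤ 5 := by
    have h := Finset.card_le_univ (univ.filter (fun k : Fin 5 =>
      gProj (neg c 0) (neg c 1) (neg c 2) k (A (c, gSide k)) = B (gTgt (var c) c k)))
    simpa using h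
  by_cases hc : NotTwo σ (var c) (neg c)
  · rw [if_pos hc]
    exact_mod_cast h5
  · rw [if_neg hc]
    have hne : (univ.filter (fun k : Fin 5 =>
        gProj (neg c 0) (neg c 1) (neg c 2) k (A (c, gSide k)) = B (gTgt (var c) c k))).card
        ≠ 5 := by
      intro h
      have huniv : univ.filter (fun k : Fin 5 =>
          gProj (neg c 0) (neg c 1) (neg c 2) k (A (c, gSide k)) = B (gTgt (var c) c k))
          = univ := Finset.eq_univ_of_card _ (by rw [h]; simp)
      have hall : ∀ k : Fin 5,
          gProj (neg c 0) (neg c 1) (neg c 2) k (A (c, gSide k)) = B (gTgt (var c) c k) := by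
        intro k
        have hk := Finset.mem_univ k
        rw [← huniv] at hk
        exact (Finset.mem_filter.mp hk).2
      have h0 : gProj (neg c 0) (neg c 1) (neg c 2) 0 (A (c, false))
          = B (Sum.inl (var c 0)) := hall 0
      have h1 : gProj (neg c 0) (neg c 1) (neg c 2) 1 (A (c, false))
          = B (Sum.inl (var c 1)) := hall 1
      have h2 : gProj (neg c 0) (neg c 1) (neg c 2) 2 (A (c, false))
          = B (Sum.inr c) := hall 2
      have h3 : gProj (neg c 0) (neg c 1) (neg c 2) 3 (A (c, true))
          = B (Sum.inr c) := hall 3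
      have h4 : gProj (neg c 0) (neg c 1) (neg c 2) 4 (A (c, true))
          = B (Sum.inl (var c 2)) := hall 4
      have key := gadget_sound (neg c 0) (neg c 1) (neg c 2) (A (c, false)) (A (c, true))
        (by rw [h2, h3])
      apply hc
      rw [notTwo_iff]
      have e0 : litVal σ (var c) (neg c) 0
          = xor (dec6 (gProj (neg c 0) (neg c 1) (neg c 2) 0 (A (c, false)))) (neg c 0) := by
        rw [h0]
        rfl
      have e1 : litVal σ (var c) (neg c) 1
          = xor (dec6 (gProj (neg c 0) (neg c 1) (neg c 2) 1 (A (c, false)))) (neg c 1) := by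
        rw [h1]
        rfl
      have e2 : litVal σ (var c) (neg c) 2
          = xor (dec6 (gProj (neg c 0) (neg c 1) (neg c 2) 4 (A (c, true)))) (neg c 2) := by
        rw [h4]
        rfl
      rw [e0, e1, e2]
      exact key
    have h4 : (univ.filter (fun k : Fin 5 =>
        gProj (neg c 0) (neg c 1) (neg c 2) k (A (c, gSide k)) = B (gTgt (var c) c k))).card
        ≤ 4 := by omega
    exact_mod_cast h4

end Vale.Agent.Lib.P339
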