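import Vale.Agent.Lib.P339.Game

namespace Vale.Agent.Lib.P339

open Finset

/-- Extension of a map `π : Fin (2q) → Fin q` to the alphabets enlarged by two new left
labels `2q`, `2q+1` and one new right label `q`: old labels are mapped as before and both
new left labels go to the new right label. -/
def extProj {q : ℕ} (π : Fin (2 * q) → Fin q) (a : Fin (2 * (q + 1))) : Fin (q + 1) :=
  if h : a.val < 2 * q then (π ⟨a.val, h⟩).castSucc else Fin.last q

/-- First gadget map: `a ↦ ⌊a/2⌋`. -/
def gadA (q : ℕ) (a : Fin (2 * (q + 1))) : Fin (q + 1) := ⟨a.val / 2, by omega⟩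

/-- Underlying function on naturals of the second gadget map. -/
def gadBnat (q a : ℕ) : ℕ :=
  if a = 1 ∨ a = 3 then q else if a = 2 * q then 0 else if a = 2 * q + 1 then 1 else a / 2

theorem gadBnat_lt {q a : ℕ} (hq : 2 ≤ q) (ha : a < 2 * (q + 1)) : gadBnat q a < q + 1 := by
  unfold gadBnat
  split_ifs <;> omega

/-- Second gadget map: `1, 3 ↦ q`, `2q ↦ 0`, `2q+1 ↦ 1`, and `a ↦ ⌊a/2⌋` otherwise. -/
def gadB (q : ℕ) (hq : 2 ≤ q) (a : Fin (2 * (q + 1))) : Fin (q + 1) :=
  ⟨gadBnat q a.val, gadBnat_lt hq a.isLt⟩

theorem card_filter_eq_two_of_iff {n : ℕ} (P : Fin n → Prop) [DecidablePred P] (x y : Fin n)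
    (hxy : x ≠ y) (h : ∀ a, P a ↔ a = x ∨ a = y) : (univ.filter P).card = 2 := by
  have : univ.filter P = {x, y} := by
    ext a
    simp [h a]
  rw [this, Finset.card_pair hxy]

theorem gadA_two_to_one (q : ℕ) (b : Fin (q + 1)) :
    (univ.filter fun a => gadA q a = b).card = 2 := by
  apply card_filter_eq_two_of_iff _ (⟨2 * b.val, by omega⟩ : Fin (2 * (q + 1)))
    (⟨2 * b.val + 1, by omega⟩ : Fin (2 * (q + 1)))
  · intro h
    simp only [Fin.mk.injEq] at h
    omega
  · intro a
    simp only [gadA, Fin.ext_iff]
    omega

theorem gadB_two_to_one (q : ℕ) (hq : 2 ≤ q) (b : Fin (q + 1)) :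
    (univ.filter fun a => gadB q hq a = b).card = 2 := by
  by_cases h0 : b.val = 0
  · apply card_filter_eq_two_of_iff _ (⟨0, by omega⟩ : Fin (2 * (q + 1)))
      (⟨2 * q, by omega⟩ : Fin (2 * (q + 1)))
    · intro h
      simp only [Fin.mk.injEq] at h
      omega
    · intro a
      simp only [gadB, gadBnat, Fin.ext_iff]
      split_ifs <;> omega
  by_cases h1 : b.val = 1
  · apply card_filter_eq_two_of_iff _ (⟨2, by omega⟩ : Fin (2 * (q + 1)))
      (⟨2 * q + 1, by omega⟩ : Fin (2 * (q + 1)))
    · intro h
      simp only [Fin.mk.injEq] at h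
      omega
    · intro a
      simp only [gadB, gadBnat, Fin.ext_iff]
      split_ifs <;> omega
  by_cases hq' : b.val = q
  · apply card_filter_eq_two_of_iff _ (⟨1, by omega⟩ : Fin (2 * (q + 1)))
      (⟨3, by omega⟩ : Fin (2 * (q + 1)))
    · intro h
      simp only [Fin.mk.injEq] at h
      omega
    · intro a
      simp only [gadB, gadBnat, Fin.ext_iff]
      split_ifs <;> omega
  · apply card_filter_eq_two_of_iff _ (⟨2 * b.val, by omega⟩ : Fin (2 * (q + 1)))
      (⟨2 * b.val + 1, by omega⟩ : Fin (2 * (q + 1)))
    · intro h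
      simp only [Fin.mk.injEq] at h
      omega
    · intro a
      simp only [gadB, gadBnat, Fin.ext_iff]
      split_ifs <;> omega

end Vale.Agent.Lib.P339

namespace Vale.Agent.Lib.P339

open Finset

theorem extProj_old {q : ℕ} (π : Fin (2 * q) → Fin q) (a : Fin (2 * (q + 1)))
    (h : a.val < 2 * q) : extProj π a = (π ⟨a.val, h⟩).castSucc := by
  unfold extProj
  rw [dif_pos h]

theorem extProj_new {q : ℕ} (π : Fin (2 * q) → Fin q) (a : Fin (2 * (q + 1)))
    (h : ¬ a.val < 2 * q) : extProj π a = Fin.last q := by
  unfold extProj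
  rw [dif_neg h]

theorem extProj_two_to_one {q : ℕ} (π : Fin (2 * q) → Fin q)
    (hπ : ∀ b, (univ.filter fun a => π a = b).card = 2) (b : Fin (q + 1)) :
    (univ.filter fun a => extProj π a = b).card = 2 := by
  by_cases hb : b.val < q
  · have hle : 2 * q ≤ 2 * (q + 1) := by omega
    have hemb : (univ.filter fun a => extProj π a = b) =
        (univ.filter fun a' => π a' = ⟨b.val, hb⟩).map (Fin.castLEEmb hle) := by
      ext a
      simp only [mem_filter, mem_univ, true_and, mem_map]
      constructor
      · intro h
        by_cases ha : a.val < 2 * q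
        · rw [extProj_old π a ha] at h
          refine ⟨⟨a.val, ha⟩, ?_, ?_⟩
          · apply Fin.ext
            have := congrArg Fin.val h
            simpa using this
          · apply Fin.ext
            simp
        · rw [extProj_new π a ha] at h
          exfalso
          have := congrArg Fin.val h
          simp at this
          omega
      · rintro ⟨a', ha', rfl⟩
        have hlt : (Fin.castLEEmb hle a').val < 2 * q := by simp
        rw [extProj_old π _ hlt]
        apply Fin.ext
        have h2 : (⟨(Fin.castLEEmb hle a').val, hlt⟩ : Fin (2 * q)) = a' := by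
          apply Fin.ext
          simp
        rw [h2, ha']
        simp
    rw [hemb, card_map, hπ]
  · have hb' : b = Fin.last q := by
      apply Fin.ext
      have := b.isLt
      simp only [Fin.val_last]
      omega
    subst hb'
    apply card_filter_eq_two_of_iff _ (⟨2 * q, by omega⟩ : Fin (2 * (q + 1)))
      (⟨2 * q + 1, by omega⟩ : Fin (2 * (q + 1)))
    · intro h
      simp only [Fin.mk.injEq] at h
      omega
    · intro a
      by_cases ha : a.val < 2 * q
      · rw [extProj_old π a ha]
        constructor
        · intro h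
          have := congrArg Fin.val h
          simp at this
          have := (π ⟨a.val, ha⟩).isLt
          omega
        · intro h
          rcases h with h | h <;> · rw [Fin.ext_iff] at h; simp at h; omega
      · rw [extProj_new π a ha]
        simp only [Fin.ext_iff, true_iff]
        have := a.isLt
        omega

end Vale.Agent.Lib.P339
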