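import Vale.Agent.Lib.P339.Game

namespace Vale.Agent.Lib.P339

open Finset

/-- The fibre count of the map `a ↦ (a mod q) + j` from `Fin (2 * q)` to `Fin q`. -/
theorem shift_two_to_one (q : ℕ) [NeZero q] (j b : Fin q) :
    (univ.filter fun a : Fin (2 * q) => (finProdFinEquiv.symm a).2 + j = b).card = 2 := by
  classical
  have h1 : (univ.filter fun a : Fin (2 * q) => (finProdFinEquiv.symm a).2 + j = b)
      = ((univ : Finset (Fin 2)) ×ˢ ({b - j} : Finset (Fin q))).map
          (finProdFinEquiv : Fin 2 × Fin q ≃ Fin (2 * q)).toEmbedding := by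
    ext a
    simp only [mem_filter, mem_univ, true_and, mem_map, mem_product, mem_singleton,
      Equiv.coe_toEmbedding]
    constructor
    · intro h
      refine ⟨finProdFinEquiv.symm a, ?_, Equiv.apply_symm_apply _ _⟩
      rw [eq_sub_iff_add_eq]
      exact h
    · rintro ⟨x, hx, rfl⟩
      rw [Equiv.symm_apply_apply, hx]
      simp
  rw [h1, Finset.card_map, Finset.card_product]
  simp

/-- The game with one left vertex, one right vertex and `q` parallel constraints
`a ↦ (a mod q) + j`, `j : Fin q`, with the uniform distribution. -/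
noncomputable def tightGame (q : ℕ) [NeZero q] : Game q where
  U := Unit
  V := Unit
  E := Fin q
  nonemptyE := ⟨0⟩
  src := fun _ => ()
  tgt := fun _ => ()
  proj := fun j a => (finProdFinEquiv.symm a).2 + j
  two_to_one := fun j b => shift_two_to_one q j b
  prob := fun _ => (1 : ℝ) / q
  prob_nonneg := fun _ => by positivity
  prob_sum := by
    have hq : (q : ℝ) ≠ 0 := by exact_mod_cast NeZero.ne q
    simp [Finset.sum_const, hq]

/-- Every labeling of `tightGame q` satisfies exactly one of the `q` constraints. -/
theorem tightGame_satWeight (q : ℕ) [NeZero q] (A : (tightGame q).U → Fin (2 * q))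
    (B : (tightGame q).V → Fin q) : (tightGame q).satWeight A B = (1 : ℝ) / q := by
  classical
  show (∑ j : Fin q, if (finProdFinEquiv.symm (A ())).2 + j = B () then (1 : ℝ) / q else 0)
      = (1 : ℝ) / q
  have : ∀ j : Fin q, ((finProdFinEquiv.symm (A ())).2 + j = B ()) ↔
      j = B () - (finProdFinEquiv.symm (A ())).2 := by
    intro j
    rw [eq_sub_iff_add_eq']
  simp only [this]
  rw [Finset.sum_ite_eq']
  simp

/-- A literal: a variable index together with a sign (`true` for the variable itself,
`false` for its negation). -/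
abbrev Literal := ℕ × Bool

/-- A 3-CNF formula: a list of clauses, each clause a triple of literals. -/
abbrev Formula3 := List (Literal × Literal × Literal)

/-- Satisfiability of a 3-CNF formula: some truth assignment makes at least one literal of
every clause true. -/
def Formula3.Sat (φ : Formula3) : Prop :=
  ∃ σ : ℕ → Bool, ∀ c ∈ φ, σ c.1.1 = c.1.2 ∨ σ c.2.1.1 = c.2.1.2 ∨ σ c.2.2.1 = c.2.2.2

/-- An unsatisfiable 3-CNF formula exists. -/
theorem exists_unsat : ∃ φ : Formula3, ¬ φ.Sat := by
  refine ⟨[((0, true), (0, true), (0, true)), ((0, false), (0, false), (0, false))], ?_⟩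
  rintro ⟨σ, hσ⟩
  have h1 := hσ ((0, true), (0, true), (0, true)) (by simp)
  have h2 := hσ ((0, false), (0, false), (0, false)) (by simp)
  simp only at h1 h2
  rcases h1 with h1 | h1 | h1 <;> rcases h2 with h2 | h2 | h2 <;> simp [h1] at h2

end Vale.Agent.Lib.P339
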